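import Vale.Agent.P011.H704.HQ.Nu
import Vale.Agent.P011.H704.R6.Bridge
import Vale.Agent.P011.H698.PlusOf

/-!
Function fields: a normal subgroup of the special unitary group of rank one of a division algebra
which contains the commutators with the elements close to one at places of division type contains
the elements of norm one of the quaternion subalgebras which are close to one at the ramified
places and at the places of division type.
-/

open Module
open scoped commutatorElement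

set_option linter.unusedSectionVars false

namespace Vale.Agent.P011.H704.HQ

open Vale.Agent.P011.MPQ Vale.Agent.P011.H738 Vale.Agent.P011.H271 Vale.Agent.P011.H976.FF
open Vale.Agent.P011.H704.R6 Vale.Agent.P011.H698
open Vale.Agent.P011.Arith (NF)
open Vale.Agent.P011.H63.FB (LSF)

section ram

variable {k D : Type} [Field k] [DivisionRing D] [StarRing D] [Algebra k D]
  {F : Type} [Field F] [GFF F] [Algebra k F] {ι : F →ₐ[k] D} {α β : Fˣ} {i j : D}
  {ν : AbsoluteValue D ℝ}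

/-- An absolute value of the division algebra which extends the place of the center of a
quaternion subalgebra forces ramification. -/
theorem ram_of (hu : ∀ x y, ν (x + y) ≤ max (ν x) (ν y)) (h2 : (2 : F) ≠ 0)
    (h : QFrF ι α β i j) {ω : Place F}
    (hω : ∀ x y : F, ω.abv x ≤ ω.abv y ↔ ν (ι x) ≤ ν (ι y)) : RamF α β ω := by
  rintro ⟨x0, y0, h0⟩
  obtain ⟨φ, hφ⟩ := exists_qhom h
  have key : ∀ q : Qt α β, ω.abv (2 * q.re) ^ 2 ≤ ω.abv (nrd q) := by
    intro q
    have h1 := nu_re ν hu h2 h hφ q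
    have h3 := nu_sq ν h2 h hφ q
    rw [← map_pow, hω, map_pow, map_pow, ← h3]
    exact pow_le_pow_left₀ (ν.nonneg _) h1 2
  have e1 : ∀ x y : F, ω.abv (2 * x) ^ 2 ≤ ω.abv (x ^ 2 - α * y ^ 2 - β) := by
    intro x y
    have h5 : nrd (⟨x, y, 1, 0⟩ : Qt α β) = x ^ 2 - α * y ^ 2 - β := by simp only [nrd]; ring
    have := key ⟨x, y, 1, 0⟩
    rwa [h5] at this
  have e2 : ∀ x y : F, ω.abv (2 * (α * y)) ^ 2 ≤ ω.abv (-α * (x ^ 2 - α * y ^ 2 - β)) := by
    intro x y
    have h5 : nrd ((⟨x, y, 1, 0⟩ : Qt α β) * ⟨0, 1, 0, 0⟩) = -α * (x ^ 2 - α * y ^ 2 - β) := by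
      rw [nrd_mul]
      simp only [nrd]
      ring
    have h6 : ((⟨x, y, 1, 0⟩ : Qt α β) * ⟨0, 1, 0, 0⟩).re = α * y := by
      simp only [QuaternionAlgebra.re_mul]
      ring
    have := key (⟨x, y, 1, 0⟩ * ⟨0, 1, 0, 0⟩)
    rwa [h5, h6] at this
  have hd : DenseRange (algebraMap F ω.comp) := by
    rw [Metric.denseRange_iff]
    intro x r hr
    obtain ⟨a, ha⟩ := dense_alg ω x hr
    refine ⟨a, ?_⟩
    rw [dist_eq_norm]
    exact ha
  have f1 : ∀ X Y : ω.comp, ‖2 * X‖ ^ 2 ≤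
      ‖X ^ 2 - algebraMap F ω.comp α * Y ^ 2 - algebraMap F ω.comp β‖ := by
    intro X Y
    refine DenseRange.induction_on₂ (p := fun X Y : ω.comp => ‖2 * X‖ ^ 2 ≤
      ‖X ^ 2 - algebraMap F ω.comp α * Y ^ 2 - algebraMap F ω.comp β‖) hd
      (isClosed_le (by fun_prop) (by fun_prop)) ?_ X Y
    intro x y
    have h5 := e1 x y
    rw [← norm_alg, ← norm_alg] at h5
    simpa only [map_mul, map_sub, map_pow, map_ofNat] using h5
  have f2 : ∀ X Y : ω.comp, ‖2 * (algebraMap F ω.comp α * Y)‖ ^ 2 ≤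
      ‖-algebraMap F ω.comp α *
        (X ^ 2 - algebraMap F ω.comp α * Y ^ 2 - algebraMap F ω.comp β)‖ := by
    intro X Y
    refine DenseRange.induction_on₂ (p := fun X Y : ω.comp =>
      ‖2 * (algebraMap F ω.comp α * Y)‖ ^ 2 ≤ ‖-algebraMap F ω.comp α *
        (X ^ 2 - algebraMap F ω.comp α * Y ^ 2 - algebraMap F ω.comp β)‖) hd
      (isClosed_le (by fun_prop) (by fun_prop)) ?_ X Y
    intro x y
    have h5 := e2 x y
    rw [← norm_alg, ← norm_alg] at h5
    simpa only [map_mul, map_sub, map_pow, map_ofNat, map_neg] using h5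
  have g0 : x0 ^ 2 - algebraMap F ω.comp α * y0 ^ 2 - algebraMap F ω.comp β = 0 := by
    rw [h0, sub_self]
  have h2' : (2 : ω.comp) ≠ 0 := two_ne_comp h2 ω
  have hα : algebraMap F ω.comp (α : F) ≠ 0 := (map_ne_zero _).mpr α.ne_zero
  have hβ : algebraMap F ω.comp (β : F) ≠ 0 := (map_ne_zero _).mpr β.ne_zero
  have g1 : x0 = 0 := by
    have h5 := f1 x0 y0
    rw [g0, norm_zero] at h5
    have h6 : ‖2 * x0‖ = 0 := by
      have := norm_nonneg (2 * x0)
      nlinarith
    exact (mul_eq_zero.mp (norm_eq_zero.mp h6)).resolve_left h2'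
  have g2 : y0 = 0 := by
    have h5 := f2 x0 y0
    rw [g0, mul_zero, norm_zero] at h5
    have h6 : ‖2 * (algebraMap F ω.comp (α : F) * y0)‖ = 0 := by
      have := norm_nonneg (2 * (algebraMap F ω.comp (α : F) * y0))
      nlinarith
    exact (mul_eq_zero.mp ((mul_eq_zero.mp (norm_eq_zero.mp h6)).resolve_left h2')).resolve_left hα
  rw [g1, g2] at h0
  apply hβ
  rw [← h0]
  ring

end ram

section dnu

variable {k K D Ω : Type} [Field k] [Field K] [StarRing K] [DivisionRing D] [StarRing D]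
  [Algebra k K] [Algebra k D] [Algebra K D] [IsScalarTower k K D] [StarModule K D] {n N : ℕ}
  [Field Ω] [Algebra K Ω]

/-- A nonarchimedean absolute value of the division algebra at a place of division type. -/
structure DNu (B : Basis (Fin N) k D) (v : Place k) (ν : AbsoluteValue D ℝ) : Prop where
  ultra : ∀ x y, ν (x + y) ≤ max (ν x) (ν y)
  alg : ∀ c : k, ν (algebraMap k D c) = v.abv c
  coord : ∃ C : ℝ, 0 < C ∧ ∀ x i, v.abv (B.repr x i) ≤ C * (ν x + ν (star x))
  upper : ∃ C : ℝ, 0 < C ∧ ∀ (x : D) (ε : ℝ), 0 < ε → (∀ i, v.abv (B.repr x i) < ε) →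
    ν x ≤ C * ε

theorem exists_dnu [GFF k] (hA : Anis k K D n) (hn : n ≠ 0)
    (f : D →ₐ[K] Matrix (Fin n) (Fin n) Ω) (B : Basis (Fin N) k D) {v : Place k}
    (hv : v ∈ Adiv k K D) : ∃ ν : AbsoluteValue D ℝ, DNu B v ν := by
  have hcen := hA.central
  have hfdA := hA.finiteDimensional hn
  obtain ⟨φ, hφ⟩ := hv
  obtain ⟨E, hE1, hE2, hE3, ι, L⟩ := @exists_locPlus k K D v.comp Ω _ _ _ _ _ _ _ _ _ _ _ _ _
    (ntComp v) _ _ _ _ _ n hA.fixed hA.star_ne (Nat.pos_of_ne_zero hn) hA.finrank_eq f φ hφ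
  refine ⟨nu0 ι, ?_, ?_, ?_, ?_⟩
  · intro x y
    rw [nu0_apply, nu0_apply, nu0_apply, map_add]
    exact IsUltrametricDist.norm_add_le_max _ _
  · intro c
    rw [nu0_apply, Algebra.algebraMap_eq_smul_one, L.norm_k, map_one, norm_one, mul_one]
    exact norm_alg v c
  · obtain ⟨C, hC, h⟩ := L.dat.coord N B
    refine ⟨C, hC, fun x i => ?_⟩
    rw [← norm_alg]
    exact h x i
  · obtain ⟨C, hC, h⟩ := L.upper N B
    refine ⟨C, hC, fun x ε hε hx => ?_⟩
    refine h x ε hε fun i => ?_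
    have h1 := norm_alg v (B.repr x i)
    exact h1.trans_lt (hx i)

end dnu

/-- The set `M` contains the elements of norm one of the quaternion subalgebras which are close to
one at the places where the quaternion algebra ramifies and at the places of `T`. -/
def HQ1F (k : Type) {D : Type} [Field k] [DivisionRing D] [StarRing D] [Algebra k D] {N : ℕ}
    (B : Basis (Fin N) k D) (T : Finset (Place k)) (ε : ℝ) (M : Set D) : Prop :=
  ∀ (F : Type) [Field F] [GFF F] [Algebra k F] (ι : F →ₐ[k] D) (α β : Fˣ) (i j : D)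
    (p₀ p₁ p₂ p₃ : F) (u : D), QEltF ι α β i j p₀ p₁ p₂ p₃ u →
    (∀ ω : Place F, β ∉ NF α ⊔ LSF ω → ω.abv (2 - 2 * p₀) < 1) →
    (∀ v ∈ T, ∀ l, v.abv (B.repr (u - 1) l) < ε) → u ∈ M

section main

variable {k K D Ω : Type} [Field k] [Field K] [StarRing K] [DivisionRing D] [StarRing D]
  [Algebra k K] [Algebra k D] [Algebra K D] [IsScalarTower k K D] [StarModule K D] {n N : ℕ}
  [Field Ω] [Algebra K Ω]

/-- A nonzero scalar which is small at finitely many places. -/
theorem exists_small_scalar (T : Finset (Place k)) (δ : Place k → ℝ) (hδ : ∀ v, 0 < δ v) :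
    ∃ m : k, m ≠ 0 ∧ ∀ v ∈ T, v.abv m < δ v := by
  rcases T.eq_empty_or_nonempty with rfl | hT
  · exact ⟨1, one_ne_zero, fun v hv => absurd hv (Finset.notMem_empty v)⟩
  choose y hy0 hy using fun v : Place k =>
    @NormedField.exists_norm_lt _ (ntComp v) (δ v) (hδ v)
  let η : ℝ := T.inf' hT fun v => ‖y v‖
  have hη : 0 < η := (Finset.lt_inf'_iff hT).mpr fun v _ => hy0 v
  have hle : ∀ v ∈ T, η ≤ ‖y v‖ := fun v hv => Finset.inf'_le _ hv
  obtain ⟨a, ha⟩ := place_weak T y hη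
  refine ⟨a, ?_, fun v hv => ?_⟩
  · rintro rfl
    obtain ⟨v0, hv0⟩ := hT
    have h1 := ha v0 hv0
    rw [map_zero, zero_sub, norm_neg] at h1
    exact absurd (h1.trans_le (hle v0 hv0)) (lt_irrefl _)
  · rw [← norm_alg]
    have h1 : algebraMap k v.comp a = (algebraMap k v.comp a - y v) + y v := by
      rw [sub_add_cancel]
    rw [h1]
    refine (IsUltrametricDist.norm_add_le_max _ _).trans_lt (max_lt ?_ (hy v))
    exact ((ha v hv).trans_le (hle v hv)).trans (hy v)

/-- **Function fields: the property `HQ1`.** -/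
theorem hq1F [GFF k] (hA : Anis k K D n) (hn : n ≠ 0) (h2 : (2 : k) ≠ 0)
    (f : D →ₐ[K] Matrix (Fin n) (Fin n) Ω) (B : Basis (Fin N) k D)
    (Q H : Subgroup (SUA f)) [hQ : Q.Normal] (hc : ∀ g : SUA f, ∀ x ∈ H, ⁅g, x⁆ ∈ Q)
    (hH : NearA k K f B H) :
    ∃ T : Finset (Place k), (∀ v ∈ T, v ∈ Adiv k K D) ∧ ∃ ε : ℝ, 0 < ε ∧
      HQ1F k B T ε {x | ∃ g ∈ Q, ((g : Dˣ) : D) = x} := by
  classical
  obtain ⟨T, hT, ε0, hε0, hH⟩ := hH
  choose ν hν using fun v : T => exists_dnu hA hn f B (hT v v.2)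
  choose C hC hCb using fun v => (hν v).coord
  choose C' hC' hCb' using fun v => (hν v).upper
  -- the scalar which defines the levels
  obtain ⟨m, hm0, hm⟩ := exists_small_scalar T
    (fun v => if hv : v ∈ T then min 1 (ε0 / (2 * C ⟨v, hv⟩)) else 1) (fun v => by
      split_ifs with hv
      · have := hC ⟨v, hv⟩
        exact lt_min one_pos (by positivity)
      · exact one_pos)
  have hm1 : ∀ v : T, (v : Place k).abv m < 1 := fun v => by
    have h1 := hm v v.2
    rw [dif_pos v.2] at h1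
    exact h1.trans_le (min_le_left _ _)
  have hmC : ∀ v : T, 2 * C v * (v : Place k).abv m < ε0 := fun v => by
    have h1 := hm v v.2
    rw [dif_pos v.2] at h1
    have h3 := h1.trans_le (min_le_right _ _)
    have h4 := hC v
    rw [lt_div_iff₀ (by positivity)] at h3
    linarith
  have hmpos : ∀ v : T, 0 < (v : Place k).abv m := fun v => (v : Place k).abv.pos hm0
  obtain ⟨ε, hε, hεle⟩ := exists_pos_le (fun v : T => (v : Place k).abv m ^ 2 / (C' v + 1))
    fun v => by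
      have := hC' v
      have := hmpos v
      positivity
  have hεC : ∀ v : T, C' v * ε < (v : Place k).abv m ^ 2 := fun v => by
    have h1 := hεle v
    have h3 := hC' v
    have h4 := hmpos v
    rw [le_div_iff₀ (by linarith)] at h1
    nlinarith
  refine ⟨T, hT, ε, hε, ?_⟩
  intro F _ _ _ ι α β i j p₀ p₁ p₂ p₃ u hu hloc hnear
  have h2F : (2 : F) ≠ 0 := by
    rw [← map_ofNat (algebraMap k F) 2]
    exact (map_ne_zero _).mpr h2
  have hAn : Aniso α β := hu.fr.aniso h2F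
  obtain ⟨φ, hφ⟩ := exists_qhom hu.fr
  have hνk : ∀ (v : T) (c : k), ν v (ι (algebraMap k F c)) = (v : Place k).abv c := by
    intro v c
    rw [AlgHom.commutes]
    exact (hν v).alg c
  -- the places of the center
  have hpl : ∀ v : T, ∃ ω : Place F, ∀ x y : F, ω.abv x ≤ ω.abv y ↔ ν v (ι x) ≤ ν v (ι y) := by
    intro v
    refine exists_place (ν v) (hν v).ultra ι ⟨algebraMap k F m⁻¹, ?_⟩
    rw [hνk, map_inv₀]
    exact (one_lt_inv₀ (hmpos v)).mpr (hm1 v)
  choose ω hω using hpl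
  have hωlt : ∀ (v : T) (x y : F), (ω v).abv x < (ω v).abv y ↔ ν v (ι x) < ν v (ι y) := by
    intro v x y
    rw [← not_le, ← not_le, hω]
  let T0 : Finset (Place F) := T.attach.image ω
  have hT0 : ∀ w ∈ T0, ∃ v : T, ω v = w := by
    intro w hw
    obtain ⟨v, -, hv⟩ := Finset.mem_image.mp hw
    exact ⟨v, hv⟩
  -- the homomorphism
  let Φ0 : SL1 α β →* Dˣ := (Units.map (φ : Qt α β →* D)).comp (SL1 α β).subtype
  have hΦ0 : ∀ x : SL1 α β, (Φ0 x : D) = φ ((x : (Qt α β)ˣ) : Qt α β) := fun x => rfl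
  have hmem : ∀ x : SL1 α β, Φ0 x ∈ SUA f := by
    intro x
    have hx : nrd ((x : (Qt α β)ˣ) : Qt α β) = 1 := x.2
    have hq : QEltF ι α β i j _ _ _ _ (φ ((x : (Qt α β)ˣ) : Qt α β)) := ⟨hu.fr, hx, hφ _⟩
    refine ⟨hq.mul_star_self, ?_⟩
    let m : D →* Ω := (Matrix.detMonoidHom : Matrix (Fin n) (Fin n) Ω →* Ω).comp
      (f : D →* Matrix (Fin n) (Fin n) Ω)
    exact QEltF.map_eq_one h2F m hq
  let Φ : SL1 α β →* SUA f := Φ0.codRestrict (SUA f) hmem
  have hΦ : ∀ x : SL1 α β, (((Φ x : SUA f) : Dˣ) : D) = φ ((x : (Qt α β)ˣ) : Qt α β) :=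
    fun x => rfl
  -- the elements of level `m ^ 2`
  have hlev : ∀ z : SL1 α β, (∀ w ∈ T0, w.abv (nrd (((z : (Qt α β)ˣ) : Qt α β) - 1)) ≤
      w.abv (algebraMap k F m) ^ 2) → Φ z ∈ H := by
    intro z hz
    refine hH _ fun v hv l => ?_
    let v' : T := ⟨v, hv⟩
    have h1 := hCb v' (φ (((z : (Qt α β)ˣ) : Qt α β) - 1)) l
    have h3 : ν v' (star (φ (((z : (Qt α β)ˣ) : Qt α β) - 1))) =
        ν v' (φ (((z : (Qt α β)ˣ) : Qt α β) - 1)) := by
      rw [star_qhom hu.fr hφ, nu_star (ν v') h2F hu.fr hφ]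
    have h4 := hz (ω v') (Finset.mem_image_of_mem _ (Finset.mem_attach _ v'))
    rw [← map_pow, hω, ← nu_sq (ν v') h2F hu.fr hφ, map_pow, map_pow, hνk] at h4
    have h5 : ν v' (φ (((z : (Qt α β)ˣ) : Qt α β) - 1)) ≤ v.abv m :=
      (pow_le_pow_iff_left₀ ((ν v').nonneg _) (v.abv.nonneg _) two_ne_zero).mp h4
    have h6 : (((Φ z : SUA f) : Dˣ) : D) - 1 = φ (((z : (Qt α β)ˣ) : Qt α β) - 1) := by
      rw [map_sub, map_one, hΦ]
    rw [h6]
    refine h1.trans_lt ?_
    rw [h3]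
    have h7 := hmC v'
    have h8 := hC v'
    calc C v' * (ν v' (φ (((z : (Qt α β)ˣ) : Qt α β) - 1)) +
          ν v' (φ (((z : (Qt α β)ˣ) : Qt α β) - 1))) ≤ C v' * (v.abv m + v.abv m) :=
          mul_le_mul_of_nonneg_left (add_le_add h5 h5) h8.le
      _ = 2 * C v' * (v' : Place k).abv m := by ring
      _ < ε0 := h7
  -- the element
  have hnrm : nrd (⟨p₀, p₁, p₂, p₃⟩ : Qt α β) = 1 := hu.nrm
  have hu' : φ ⟨p₀, p₁, p₂, p₃⟩ = u := by rw [hφ, hu.eq]
  let g : SL1 α β := ⟨unitOf ⟨p₀, p₁, p₂, p₃⟩ (by rw [hnrm]; exact one_ne_zero), hnrm⟩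
  have hg : ((g : (Qt α β)ˣ) : Qt α β) = ⟨p₀, p₁, p₂, p₃⟩ := rfl
  have hfin := mp_lev h2F hAn (T := T0) (m := algebraMap k F m) (by
      intro w hw
      obtain ⟨v, rfl⟩ := hT0 w hw
      exact ram_of (hν v).ultra h2F hu.fr (hω v)) ((map_ne_zero _).mpr hm0) (by
      intro w hw
      obtain ⟨v, rfl⟩ := hT0 w hw
      rw [← map_one (ω v).abv, hωlt, hνk, map_one, map_one]
      exact hm1 v) (Q.comap Φ) (by
      intro x z hz
      rw [Subgroup.mem_comap, map_commutatorElement]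
      exact hc _ _ (hlev z hz)) g (by
      intro w hw
      rw [nrd_sub_one (show nrd ((g : (Qt α β)ˣ) : Qt α β) = 1 from hnrm)]
      exact hloc w ((ramF_iff h2F α β w).mp hw)) (by
      intro w hw
      obtain ⟨v, rfl⟩ := hT0 w hw
      rw [← map_pow, hωlt, ← nu_sq (ν v) h2F hu.fr hφ, map_pow, map_pow, hνk, map_sub, map_one,
        hg, hu']
      have h1 := hCb' v (u - 1) ε hε fun l => hnear v v.2 l
      have h3 := h1.trans_lt (hεC v)
      have h4 := hmpos v
      have h5 := hm1 v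
      have h6 := (ν v).nonneg (u - 1)
      calc ν v (u - 1) ^ 2 < ((v : Place k).abv m ^ 2) ^ 2 := pow_lt_pow_left₀ h3 h6 two_ne_zero
        _ = (v : Place k).abv m ^ 3 * (v : Place k).abv m := by ring
        _ ≤ (v : Place k).abv m ^ 3 * 1 := mul_le_mul_of_nonneg_left h5.le (by positivity)
        _ = (v : Place k).abv m ^ 3 := mul_one _)
  exact ⟨Φ g, hfin, by rw [hΦ, hg, hu']⟩

end main

end Vale.Agent.P011.H704.HQ
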