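import Vale.Agent.P011.H271.CosetF
import Vale.Agent.P011.H961.SplitAE
import Vale.Agent.P011.H519.SplitPlaceK
import Vale.Agent.P011.H63.FBase
import Vale.Agent.P011.H305.SetF

/-!
Function fields: local models at almost all places, and places at which a given element of `k` is a
square, `K` embeds and the algebra splits.
-/

open Module Polynomial IsDedekindDomain HeightOneSpectrum

set_option linter.unusedSectionVars false

namespace Vale.Agent.P011.H704.HQ

open Vale.Agent.P011.H738 Vale.Agent.P011.H271 Vale.Agent.P011.H961 Vale.Agent.P011.H519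
open Vale.Agent.P011.H305
open Vale.Agent.P011.H63.FB (LSF)

section hom

/-- A finite separable extension of a global function field embeds in the completions at
infinitely many places. -/
theorem exists_hom_place {k E : Type} [Field k] [GFF k] [Field E] [Algebra k E]
    [FiniteDimensional k E] [Algebra.IsSeparable k E] (T : Finset (Place k)) :
    ∃ q : Place k, q ∉ T ∧ Nonempty (E →ₐ[k] q.comp) := by
  classical
  obtain ⟨F, _, _, φ₀, hφ1, hφ2⟩ := (inferInstance : GFF k).out
  let _ : Algebra (RatFunc F) k := φ₀.toAlgebra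
  have hfd : FiniteDimensional (RatFunc F) k := hφ1
  have hsep : Algebra.IsSeparable (RatFunc F) k := hφ2
  let _ : Algebra (RatFunc F) E := ((algebraMap k E).comp φ₀).toAlgebra
  have htow : IsScalarTower (RatFunc F) k E := IsScalarTower.of_algebraMap_eq fun _ => rfl
  have hfd' : FiniteDimensional (RatFunc F) E := FiniteDimensional.trans (RatFunc F) k E
  have hsep' : Algebra.IsSeparable (RatFunc F) E := Algebra.IsSeparable.trans (RatFunc F) k E
  have hunits := finite_units_poly F
  have hquot := hasFiniteQuotients_poly F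
  obtain ⟨v, hv, hsplit⟩ := exists_splits (A := F[X]) (K₀ := RatFunc F) (L := E)
    (H519.finite_below (A := F[X]) (K₀ := RatFunc F) T)
  have hspk : ∀ x : k, ((minpoly (RatFunc F) x).map
      (algebraMap (RatFunc F) (v.adicCompletion (RatFunc F)))).Splits := by
    intro x
    have h1 := hsplit (algebraMap k E x)
    rwa [minpoly.algebraMap_eq (algebraMap k E).injective] at h1
  obtain ⟨s⟩ : Nonempty (k →ₐ[RatFunc F] v.adicCompletion (RatFunc F)) := by
    have h1 := AlgHom.natCard_of_splits (RatFunc F) k _ hspk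
    have h2 : Nat.card (k →ₐ[RatFunc F] v.adicCompletion (RatFunc F)) ≠ 0 := by
      rw [h1]
      exact finrank_pos.ne'
    by_contra h3
    rw [not_nonempty_iff] at h3
    exact h2 Nat.card_of_isEmpty
  obtain ⟨σ, hσ⟩ := exists_lift hsplit s
  obtain ⟨q, hq⟩ := H519.exists_place s
  obtain ⟨e, he⟩ := exists_equiv hq
  have hqK : ∀ y : RatFunc F, (toPl q).v (algebraMap (RatFunc F) k y) = v.valuation _ y := by
    intro y
    rw [hq, s.commutes]
    exact valuedAdicCompletion_eq_valuation' v y
  have hes : ∀ x : k, e.symm (s x) = algebraMap k q.comp x := fun x => by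
    rw [← he, RingEquiv.symm_apply_apply]
  exact ⟨q, fun hqT => hv ⟨q, hqT, hqK⟩,
    ⟨{ (e.symm.toRingHom.comp σ.toRingHom) with
      commutes' := fun c => by
        change e.symm (σ (algebraMap k E c)) = _
        rw [hσ, hes] }⟩⟩

/-- Infinitely many places at which a given element is a square and a given extension embeds. -/
theorem exists_sq_place {k K : Type} [Field k] [GFF k] [Field K] [Algebra k K]
    [FiniteDimensional k K] [Algebra.IsSeparable k K] (h2 : (2 : k) ≠ 0) (a : kˣ)
    (T : Finset (Place k)) :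
    ∃ q : Place k, q ∉ T ∧ Nonempty (K →ₐ[k] q.comp) ∧ a ∈ LSF q := by
  let P : K[X] := X ^ 2 - C (algebraMap k K a)
  have ha : algebraMap k K (a : k) ≠ 0 := (_root_.map_ne_zero _).mpr a.ne_zero
  have h2K : (2 : K) ≠ 0 := by
    rw [← map_ofNat (algebraMap k K) 2]
    exact (_root_.map_ne_zero _).mpr h2
  have hP : P.Separable := by
    have h3 : ((2 : ℕ) : K) ≠ 0 := by exact_mod_cast h2K
    exact separable_X_pow_sub_C (algebraMap k K a) h3 ha
  have hgal : IsGalois K P.SplittingField := IsGalois.of_separable_splitting_field hP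
  have hfd : FiniteDimensional k P.SplittingField :=
    FiniteDimensional.trans k K P.SplittingField
  have hsep : Algebra.IsSeparable k P.SplittingField :=
    Algebra.IsSeparable.trans k K P.SplittingField
  obtain ⟨q, hq, ⟨τ⟩⟩ := exists_hom_place (k := k) (E := P.SplittingField) T
  have hdeg : P.degree ≠ 0 := by
    have : P.degree = 2 := degree_X_pow_sub_C (by norm_num) _
    rw [this]
    norm_num
  obtain ⟨β, hβ⟩ := (SplittingField.splits P).exists_eval_eq_zero (by
    rw [degree_map]
    exact hdeg)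
  refine ⟨q, hq, ⟨τ.comp (IsScalarTower.toAlgHom k K P.SplittingField)⟩, ?_⟩
  rw [H63.FB.mem_LSF]
  refine ⟨τ β, ?_⟩
  have h4 : β ^ 2 = algebraMap k P.SplittingField a := by
    rw [eval_map_algebraMap] at hβ
    simp only [P, map_sub, map_pow, aeval_X, aeval_C] at hβ
    rw [← IsScalarTower.algebraMap_apply k K P.SplittingField] at hβ
    exact sub_eq_zero.mp hβ
  rw [← sq, ← map_pow, h4, AlgHom.commutes]

end hom

section mod

variable {k K A Ω : Type} [Field k] [Field K] [StarRing K] [Ring A] [StarRing A]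
  [Algebra k K] [Algebra k A] [Algebra K A] [IsScalarTower k K A] [StarModule K A] {n N : ℕ}
  [Field Ω] [Algebra K Ω]

/-- **Local models at almost all places.** -/
theorem mod_ae (hk : IsGlobalFunctionField k) (hA : Anis k K A n) (hn : 3 ≤ n)
    (f : A →ₐ[K] Matrix (Fin n) (Fin n) Ω) (B : Basis (Fin N) k A) :
    ∃ T : Finset (Place k), ∀ v ∉ T, CosetF.Mod f B v := by
  have hgff := gff_of_isGlobal hk
  have hcen := hA.central
  have hsim := hA.simple
  have hn0 : n ≠ 0 := by omega
  obtain ⟨T, hT⟩ := exists_split_ae (k := k) hA.fixed hn0 hA.finrank_eq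
  refine ⟨T, fun v hv => ?_⟩
  rcases isEmpty_or_nonempty (K →ₐ[k] v.comp) with hs | ⟨⟨φ⟩⟩
  · obtain ⟨L, _, _, _, _, _, φ, h1, h2, h3, h4, h5, h6⟩ :=
      exists_quad_field hA.fixed hA.star_ne v hs
    obtain ⟨g, hg⟩ := hT v hv L φ fun c => by rw [h4, h5, norm_alg]
    obtain ⟨E, hE⟩ := lm_nonsplit hk hA hn f B h1 h2 h3 h4 h5 h6 hg
    exact ⟨L, inferInstance, inferInstance, inferInstance, E, g, hE⟩
  · obtain ⟨g, hg⟩ := @hT v hv v.comp (nnfPlace v) _ _ (φ : K →+* v.comp) fun c => by
      rw [AlgHom.coe_toRingHom, AlgHom.commutes]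
      exact norm_alg v c
    exact ⟨v.comp, nnfPlace v, inferInstance, inferInstance, ⊤, g,
      lm_split hA (by omega) f B (φ := φ) hg⟩

/-- **Places of split type at which `a` is a square.** -/
theorem exists_q [GFF k] (hA : Anis k K A n) (hn : n ≠ 0) (h2 : (2 : k) ≠ 0) (a : kˣ)
    (S : Finset (Place k)) :
    ∃ q : Place k, q ∉ S ∧ ∃ (φ : K →ₐ[k] q.comp) (g : A →+* Matrix (Fin n) (Fin n) q.comp),
      (∀ c : K, g (algebraMap K A c) = algebraMap q.comp _ (φ c)) ∧ a ∈ LSF q := by
  classical
  have hcen := hA.central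
  have hsim := hA.simple
  obtain ⟨hfd, hsep, -⟩ := H519.quad hA.fixed hA.star_ne
  obtain ⟨T, hT⟩ := exists_split_ae (k := k) hA.fixed hn hA.finrank_eq
  obtain ⟨q, hq, ⟨φ⟩, ha⟩ := exists_sq_place (k := k) (K := K) h2 a (S ∪ T)
  obtain ⟨g, hg⟩ := @hT q (fun h => hq (Finset.mem_union_right _ h)) q.comp (nnfPlace q) _ _
    (φ : K →+* q.comp) fun c => by
      rw [AlgHom.coe_toRingHom, AlgHom.commutes]
      exact norm_alg q c
  exact ⟨q, fun h => hq (Finset.mem_union_left _ h), φ, g, hg, ha⟩

end mod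

section set

variable {k K D : Type} [Field k] [Field K] [StarRing K] [DivisionRing D] [StarRing D]
  [Algebra k K] [Algebra k D] [Algebra K D] [IsScalarTower k K D] {d : kˣ} {s : K} {n : ℕ}

/-- At a place at which `K` embeds, `d` is a square. -/
theorem d_mem_LSF (hS : SetF k K D d s) {q : Place k} (φ : K →ₐ[k] q.comp) : d ∈ LSF q := by
  rw [H63.FB.mem_LSF]
  refine ⟨φ s, ?_⟩
  rw [← sq, ← map_pow, hS.sq, AlgHom.commutes]

/-- **The place `q`.** -/
theorem exists_q_set [GFF k] (hS : SetF k K D d s) (hn : n ≠ 0) (hdeg : finrank K D = n ^ 2)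
    (a : kˣ) (S : Finset (Place k)) :
    ∃ q : Place k, q ∉ S ∧ ∃ (φ : K →ₐ[k] q.comp) (g : D →+* Matrix (Fin n) (Fin n) q.comp),
      (∀ c : K, g (algebraMap K D c) = algebraMap q.comp _ (φ c)) ∧ a ∈ LSF q ∧ d ∈ LSF q ∧
        a * d ∈ LSF q := by
  have := hS.starModule
  obtain ⟨q, hq, φ, g, hg, ha⟩ := exists_q (hS.anis hdeg) hn hS.two_ne a S
  have hd := d_mem_LSF hS φ
  exact ⟨q, hq, φ, g, hg, ha, hd, (LSF q).mul_mem ha hd⟩

end set

end Vale.Agent.P011.H704.HQ
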