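import Vale.Agent.P011.H704.HQ.Main
import Vale.Agent.P011.H167.LfD
import Vale.Agent.P011.H279.PatF

/-!
Function fields: the unitary elements `p + u s t` of the quadratic extension generated by `s t`.
-/

open Module Polynomial

set_option linter.unusedSectionVars false

namespace Vale.Agent.P011.H704.HQ

open Vale.Agent.P011.MPQ Vale.Agent.P011.H738 Vale.Agent.P011.H271 Vale.Agent.P011.H976.FF
open Vale.Agent.P011.H305 Vale.Agent.P011.H872.FF
open Vale.Agent.P011.Arith (NF)
open Vale.Agent.P011.H63.FB (LSF incF badF)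

variable {k K D : Type} [Field k] [Field K] [StarRing K] [DivisionRing D] [StarRing D]
  [Algebra k K] [Algebra k D] [Algebra K D] [IsScalarTower k K D] {d : kˣ} {s : K} {N : ℕ}

theorem star_sD (hS : SetF k K D d s) : star (algebraMap K D s) = -algebraMap K D s := by
  rw [star_algF hS, hS.star_s, map_neg]

theorem star_kD (hS : SetF k K D d s) (c : k) :
    star (algebraMap k D c) = algebraMap k D c := by
  rw [IsScalarTower.algebraMap_apply k K D, star_algF hS, hS.star_algebraMap]

/-- A square root of a central element is conjugate to its opposite. -/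
theorem exists_anti (hS : SetF k K D d s) {a : kˣ} {x : D} (hx : x * x = algebraMap k D a)
    (hxK : ∀ c : K, algebraMap K D c ≠ x) : ∃ z : D, z ≠ 0 ∧ z * x = -(x * z) := by
  have := hS.cen
  by_contra hcon
  push Not at hcon
  have h1 : ∀ y : D, x * y = y * x := by
    intro y
    by_contra hy
    refine hcon (x * y - y * x) (sub_ne_zero.mpr hy) ?_
    rw [sub_mul, mul_sub, ← mul_assoc x x, hx, mul_assoc y x x, hx, Algebra.commutes, mul_assoc,
      neg_sub]
  have h4 : x ∈ Subalgebra.center K D := by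
    rw [Subalgebra.mem_center_iff]
    exact fun b => (h1 b).symm
  have h5 := Algebra.IsCentral.out h4
  rw [Algebra.mem_bot] at h5
  obtain ⟨c, hc⟩ := h5
  exact hxK c hc

/-- There is an antisymmetric element which anticommutes with `t`. -/
theorem exists_skew (hS : SetF k K D d s) {a : kˣ} {t : D} (ht : t ∈ XaF D a)
    (htK : ∀ c : K, algebraMap K D c ≠ t) :
    ∃ j : D, j ≠ 0 ∧ star j = -j ∧ j * t = -(t * j) := by
  obtain ⟨z, hz0, hz⟩ := exists_anti hS ht.2 htK
  have hzs : star z * t = -(t * star z) := by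
    have h1 := congrArg star hz
    rw [star_mul, star_neg, star_mul, ht.1] at h1
    rw [h1, neg_neg]
  by_cases h : z - star z = 0
  · have h1 : star z = z := (sub_eq_zero.mp h).symm
    refine ⟨algebraMap K D s * z, mul_ne_zero ((_root_.map_ne_zero _).mpr hS.s_ne) hz0, ?_, ?_⟩
    · rw [star_mul, h1, star_sD hS, mul_neg, Algebra.commutes]
    · rw [mul_assoc, hz, mul_neg, ← mul_assoc, ← mul_assoc, Algebra.commutes s t]
  · refine ⟨z - star z, h, ?_, ?_⟩
    · rw [star_sub, star_star, neg_sub]
    · rw [sub_mul, mul_sub, hz, hzs]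
      abel

theorem st_star (hS : SetF k K D d s) {a : kˣ} {t : D} (ht : t ∈ XaF D a) :
    star (algebraMap K D s * t) = -(algebraMap K D s * t) := by
  rw [star_mul, ht.1, star_sD hS, mul_neg, Algebra.commutes]

theorem st_sq (hS : SetF k K D d s) {a : kˣ} {t : D} (ht : t ∈ XaF D a) :
    algebraMap K D s * t * (algebraMap K D s * t) = algebraMap k D ((a * d : kˣ) : k) := by
  have h1 : algebraMap K D s * algebraMap K D s = algebraMap k D d := by
    rw [← map_mul, ← pow_two, hS.sq, ← IsScalarTower.algebraMap_apply]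
  rw [mul_assoc, ← mul_assoc t, ← Algebra.commutes s t, mul_assoc, ht.2, ← mul_assoc, h1,
    ← map_mul, Units.val_mul, mul_comm]

/-- Elements anticommuting with `t` anticommute with `s t`. -/
theorem st_anti {t j : D} (h : j * t = -(t * j)) :
    algebraMap K D s * t * j = -(j * (algebraMap K D s * t)) := by
  rw [← mul_assoc j, ← Algebra.commutes s j, mul_assoc _ j t, h, mul_neg, neg_neg, mul_assoc]

/-- The quaternion algebra generated by `s t` and an antisymmetric element anticommuting with
`t`. -/
theorem exists_qfr [GFF k] (hS : SetF k K D d s) {a : kˣ} {t : D} (ht : t ∈ XaF D a) {j : D}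
    (hj0 : j ≠ 0) (hj : star j = -j) (hjt : j * t = -(t * j)) :
    ∃ (F : Type) (_ : Field F) (_ : GFF F) (_ : Algebra k F) (_ : Algebra.IsAlgebraic k F)
      (ι : F →ₐ[k] D) (β : Fˣ),
      QFrF ι (incF k F (a * d)) β (algebraMap K D s * t) j ∧
        ∀ x : F, ∃ p : k[X], x = aeval (β : F) p := by
  have := hS.fin
  have hKf : FiniteDimensional k K := Module.finite_of_finrank_pos (by rw [hS.rank]; norm_num)
  have hDf : FiniteDimensional k D := Module.Finite.trans K D
  obtain ⟨F, _, _, _, _, ι, b, hb, hgen⟩ := H167.Lf.exists_gen (finBasis k D) (j * j)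
  have hb0 : b ≠ 0 := by
    rintro rfl
    rw [map_zero] at hb
    exact mul_ne_zero hj0 hj0 hb.symm
  have hcom : ∀ z : D, j * j * z = z * (j * j) → ∀ x : F, ι x * z = z * ι x := by
    intro z hz x
    obtain ⟨p, rfl⟩ := hgen x
    rw [← aeval_algHom_apply, hb]
    induction p using Polynomial.induction_on' with
    | add p q hp hq => rw [map_add, add_mul, mul_add, hp, hq]
    | monomial n c =>
      rw [aeval_monomial, mul_assoc, ← mul_assoc z, ← Algebra.commutes c z, mul_assoc]
      congr 1
      exact (Commute.pow_left hz n)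
  refine ⟨F, inferInstance, inferInstance, inferInstance, inferInstance, ι, Units.mk0 b hb0, ?_, ?_⟩
  · refine
      { sym := ?_
        si := st_star hS ht
        sj := hj
        ii := ?_
        jj := by rw [Units.val_mk0, hb]
        ij := st_anti hjt
        ci := hcom _ ?_
        cj := hcom _ (by rw [mul_assoc]) }
    · intro x
      obtain ⟨p, rfl⟩ := hgen x
      rw [← aeval_algHom_apply, hb]
      induction p using Polynomial.induction_on' with
      | add p q hp hq => rw [map_add, star_add, hp, hq]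
      | monomial n c =>
        rw [aeval_monomial, star_mul, star_kD hS, star_pow, star_mul, hj, neg_mul_neg]
        exact (Algebra.commutes _ _).symm
    · rw [st_sq hS ht]
      exact (ι.commutes _).symm
    · have h1 : j * j * t = t * (j * j) := by
        rw [mul_assoc, hjt, mul_neg, ← mul_assoc, hjt, neg_mul, neg_neg, mul_assoc]
      rw [← mul_assoc, ← Algebra.commutes s (j * j), mul_assoc _ (j * j) t, h1, ← mul_assoc]
  · intro x
    obtain ⟨p, hp⟩ := hgen x
    exact ⟨p, by rw [Units.val_mk0]; exact hp.symm ▸ rfl⟩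

/-- **The unitary elements `p + u s t`** close to one belong to the subgroup. -/
theorem exists_pu_mem [GFF k] (hS : SetF k K D d s) (B : Basis (Fin N) k D) {a : kˣ} {t : D}
    (ht : t ∈ XaF D a) (htK : ∀ c : K, algebraMap K D c ≠ t) {T : Finset (Place k)} {ε : ℝ}
    (hε : 0 < ε) {M : Set D} (hM : HQ1F k B T ε M) :
    ∃ S : Finset (Place k), T ⊆ S ∧ ∃ η : ℝ, 0 < η ∧ ∀ p u : k,
      p ^ 2 - ((a * d : kˣ) : k) * u ^ 2 = 1 → (∀ v ∈ S, v.abv (p - 1) < η) →
      algebraMap k D p + algebraMap k D u * (algebraMap K D s * t) ∈ M := by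
  classical
  obtain ⟨j, hj0, hj, hjt⟩ := exists_skew hS ht htK
  obtain ⟨F, _, _, _, _, ι, β, fr, -⟩ := exists_qfr hS ht hj0 hj hjt
  have h2 : (2 : k) ≠ 0 := hS.two_ne
  have h2F : (2 : F) ≠ 0 := by
    rw [← map_ofNat (algebraMap k F) 2]
    exact (_root_.map_ne_zero _).mpr h2
  have hfin := H279.RB.badF_finite h2F (incF k F (a * d)) β
  have hS1 := H271.S3.finite_below (k := k) hfin
  obtain ⟨I, hI⟩ : ∃ I : D, I = algebraMap K D s * t := ⟨_, rfl⟩
  let R : Place k → ℝ := fun v => 1 + ∑ l, (v.abv (B.repr 1 l) + v.abv (B.repr I l))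
  have hR1 : ∀ v l, v.abv (B.repr 1 l) ≤ R v := by
    intro v l
    have h1 : v.abv (B.repr 1 l) + v.abv (B.repr I l) ≤
        ∑ l, (v.abv (B.repr 1 l) + v.abv (B.repr I l)) :=
      Finset.single_le_sum (f := fun l => v.abv (B.repr 1 l) + v.abv (B.repr I l))
        (fun i _ => add_nonneg (v.abv.nonneg _) (v.abv.nonneg _)) (Finset.mem_univ l)
    have h3 := v.abv.nonneg (B.repr I l)
    simp only [R]
    linarith
  have hR2 : ∀ v l, v.abv (B.repr I l) ≤ R v := by
    intro v l
    have h1 : v.abv (B.repr 1 l) + v.abv (B.repr I l) ≤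
        ∑ l, (v.abv (B.repr 1 l) + v.abv (B.repr I l)) :=
      Finset.single_le_sum (f := fun l => v.abv (B.repr 1 l) + v.abv (B.repr I l))
        (fun i _ => add_nonneg (v.abv.nonneg _) (v.abv.nonneg _)) (Finset.mem_univ l)
    have h3 := v.abv.nonneg (B.repr 1 l)
    simp only [R]
    linarith
  have hR0 : ∀ v, 0 < R v := by
    intro v
    have h1 : 0 ≤ ∑ l, (v.abv (B.repr 1 l) + v.abv (B.repr I l)) :=
      Finset.sum_nonneg fun l _ => add_nonneg (v.abv.nonneg _) (v.abv.nonneg _)
    simp only [R]
    linarith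
  let δ : k := ((a * d : kˣ) : k)
  have hδ0 : δ ≠ 0 := Units.ne_zero _
  obtain ⟨η, hη, hηle⟩ := H698.exists_pos_le
    (fun v : (T ∪ hS1.toFinset : Finset (Place k)) =>
      min 1 (min (ε / R v) (ε ^ 2 * (v : Place k).abv δ / R v ^ 2))) fun v => by
      have h1 := hR0 v
      have h3 : 0 < (v : Place k).abv δ := (v : Place k).abv.pos hδ0
      exact lt_min one_pos (lt_min (by positivity) (by positivity))
  refine ⟨T ∪ hS1.toFinset, Finset.subset_union_left, η, hη, fun p u hpu hv => ?_⟩
  have hα : ((incF k F (a * d) : Fˣ) : F) = algebraMap k F δ := rfl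
  have hq : QEltF ι (incF k F (a * d)) β (algebraMap K D s * t) j (algebraMap k F p)
      (algebraMap k F u) 0 0 (algebraMap k D p + algebraMap k D u * (algebraMap K D s * t)) :=
    { fr := fr
      nrm := by
        rw [hα, ← map_pow, ← map_pow, ← map_mul, ← map_sub]
        change algebraMap k F (p ^ 2 - ((a * d : kˣ) : k) * u ^ 2) - _ + _ = 1
        rw [hpu, map_one]
        ring
      eq := by
        rw [AlgHom.commutes, AlgHom.commutes, map_zero, zero_mul, zero_mul, add_zero, add_zero] }
  have hlt : ∀ v : Place k, v ∈ T ∪ hS1.toFinset → v.abv (p - 1) < 1 ∧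
      v.abv (p - 1) < ε / R v ∧ v.abv (p - 1) < ε ^ 2 * v.abv δ / R v ^ 2 := by
    intro v hvS
    have h1 := (hv v hvS).trans_le (hηle ⟨v, hvS⟩)
    exact ⟨h1.trans_le (min_le_left _ _),
      h1.trans_le ((min_le_right _ _).trans (min_le_left _ _)),
      h1.trans_le ((min_le_right _ _).trans (min_le_right _ _))⟩
  refine hM F ι _ _ _ _ _ _ _ _ _ hq (fun ω hω => ?_) (fun v hvT l => ?_)
  · obtain ⟨v, hωv⟩ := Hey.H63.exists_below (k := k) ω
    have hvS : v ∈ T ∪ hS1.toFinset :=
      Finset.mem_union_right _ ((Set.Finite.mem_toFinset _).mpr ⟨ω, hω, hωv⟩)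
    have h1 := (hlt v hvS).1
    have h3 : (2 : F) - 2 * algebraMap k F p = algebraMap k F (2 * (1 - p)) := by
      rw [map_mul, map_sub, map_one, map_ofNat]
      ring
    obtain ⟨c, hc, hωv⟩ := hωv
    rw [h3, hωv]
    refine Real.rpow_lt_one (v.abv.nonneg _) ?_ hc
    rw [map_mul, H63.FB.abv_two v h2, one_mul, ← v.abv.map_neg, neg_sub]
    exact h1
  · have hvS : v ∈ T ∪ hS1.toFinset := Finset.mem_union_left _ hvT
    obtain ⟨h1, h3, h4⟩ := hlt v hvS
    have hRv := hR0 v
    have hδv : 0 < v.abv δ := v.abv.pos hδ0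
    -- the second coordinate
    have hu2 : v.abv u < ε / R v := by
      have h5 : v.abv u ^ 2 * v.abv δ ≤ v.abv (p - 1) := by
        have h6 : u ^ 2 * δ = (p - 1) * (p + 1) := by
          change u ^ 2 * ((a * d : kˣ) : k) = _
          linear_combination -hpu
        have h7 : v.abv (p + 1) ≤ 1 := by
          have h8 : p + 1 = (p - 1) + 2 := by ring
          rw [h8]
          refine (v.nonarch _ _).trans (max_le h1.le ?_)
          rw [H63.FB.abv_two v h2]
        rw [← map_pow, ← map_mul, h6, map_mul]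
        exact mul_le_of_le_one_right (v.abv.nonneg _) h7
      have h6 : v.abv u ^ 2 < (ε / R v) ^ 2 := by
        have h7 : v.abv u ^ 2 * v.abv δ < (ε / R v) ^ 2 * v.abv δ := by
          refine h5.trans_lt (h4.trans_le (le_of_eq ?_))
          field_simp
        exact lt_of_mul_lt_mul_right h7 hδv.le
      exact lt_of_pow_lt_pow_left₀ 2 (by positivity) h6
    have h5 : algebraMap k D p + algebraMap k D u * (algebraMap K D s * t) - 1 =
        (p - 1) • (1 : D) + u • I := by
      rw [hI, Algebra.smul_def, Algebra.smul_def, map_sub, map_one]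
      noncomm_ring
    rw [h5, map_add, Finsupp.add_apply, map_smul, map_smul, Finsupp.smul_apply,
      Finsupp.smul_apply, smul_eq_mul, smul_eq_mul]
    refine (v.nonarch _ _).trans_lt (max_lt ?_ ?_)
    · rw [map_mul]
      calc v.abv (p - 1) * v.abv (B.repr 1 l) ≤ v.abv (p - 1) * R v :=
            mul_le_mul_of_nonneg_left (hR1 v l) (v.abv.nonneg _)
        _ < ε / R v * R v := mul_lt_mul_of_pos_right h3 hRv
        _ = ε := div_mul_cancel₀ _ hRv.ne'
    · rw [map_mul]
      calc v.abv u * v.abv (B.repr I l) ≤ v.abv u * R v :=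
            mul_le_mul_of_nonneg_left (hR2 v l) (v.abv.nonneg _)
        _ < ε / R v * R v := mul_lt_mul_of_pos_right hu2 hRv
        _ = ε := div_mul_cancel₀ _ hRv.ne'

end Vale.Agent.P011.H704.HQ
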