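import Vale.Agent.P011.H704.R6.MainH
import Vale.Agent.P011.H976.FF.QuatF

/-!
Absolute values of the division algebra and its quaternion subalgebras, function fields.
-/

open Module

set_option linter.unusedSectionVars false

namespace Vale.Agent.P011.H704.HQ

open Vale.Agent.P011.MPQ Vale.Agent.P011.H738 Vale.Agent.P011.H271 Vale.Agent.P011.H976.FF
open Vale.Agent.P011.H704.R6

section alg

variable {F : Type} [Field F] {α β : Fˣ}

theorem exists_conj_star (h2 : (2 : F) ≠ 0) (q : Qt α β) :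
    ∃ t : Qt α β, t ≠ 0 ∧ t * q = star q * t := by
  obtain ⟨p₀, p₁, p₂, p₃⟩ := q
  by_cases h12 : p₁ = 0 ∧ p₂ = 0
  · refine ⟨⟨0, 1, 0, 0⟩, fun h => ?_, ?_⟩
    · have := congrArg QuaternionAlgebra.imI h
      exact one_ne_zero this
    · obtain ⟨h1, h2⟩ := h12
      subst h1
      subst h2
      ext <;> simp
  · refine ⟨⟨0, β * p₂, -(α * p₁), 0⟩, fun h => h12 ?_, ?_⟩
    · have e1 := congrArg QuaternionAlgebra.imI h
      have e2 := congrArg QuaternionAlgebra.imJ h
      simp only [QuaternionAlgebra.imI_zero, QuaternionAlgebra.imJ_zero, neg_eq_zero,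
        mul_eq_zero, Units.ne_zero, false_or] at e1 e2
      exact ⟨e2, e1⟩
    · ext <;> simp <;> ring

theorem add_star (q : Qt α β) : q + star q = algebraMap F (Qt α β) (2 * q.re) := by
  ext
  · simp [QuaternionAlgebra.algebraMap_eq]
    ring
  · simp [QuaternionAlgebra.algebraMap_eq]
  · simp [QuaternionAlgebra.algebraMap_eq]
  · simp [QuaternionAlgebra.algebraMap_eq]

end alg

section nu

variable {k D : Type} [Field k] [DivisionRing D] [StarRing D] [Algebra k D]
  {F : Type} [Field F] [Algebra k F] {ι : F →ₐ[k] D} {α β : Fˣ} {i j : D}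
  {φ : Qt α β →+* D}

theorem phi_alg (hφ : ∀ q, φ q = ι q.re + ι q.imI * i + ι q.imJ * j + ι q.imK * (i * j)) (c : F) :
    φ (algebraMap F (Qt α β) c) = ι c := by
  rw [hφ]
  simp [QuaternionAlgebra.algebraMap_eq]

variable (ν : AbsoluteValue D ℝ)

theorem nu_star (h2 : (2 : F) ≠ 0) (h : QFrF ι α β i j)
    (hφ : ∀ q, φ q = ι q.re + ι q.imI * i + ι q.imJ * j + ι q.imK * (i * j)) (q : Qt α β) :
    ν (φ (star q)) = ν (φ q) := by
  obtain ⟨t, ht, h1⟩ := exists_conj_star h2 q
  have h3 : φ t ≠ 0 := fun h3 => ht (qhom_inj h2 h hφ h3)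
  have h4 := congrArg (fun x => ν (φ x)) h1
  simp only [map_mul] at h4
  have h5 : ν (φ t) ≠ 0 := (ν.ne_zero_iff).mpr h3
  rw [mul_comm] at h4
  exact (mul_right_cancel₀ h5 h4).symm

theorem nu_sq (h2 : (2 : F) ≠ 0) (h : QFrF ι α β i j)
    (hφ : ∀ q, φ q = ι q.re + ι q.imI * i + ι q.imJ * j + ι q.imK * (i * j)) (q : Qt α β) :
    ν (φ q) ^ 2 = ν (ι (nrd q)) := by
  rw [← phi_alg hφ, ← star_mul_self_qt, map_mul, map_mul, nu_star ν h2 h hφ, sq]

theorem nu_re (hu : ∀ x y, ν (x + y) ≤ max (ν x) (ν y)) (h2 : (2 : F) ≠ 0)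
    (h : QFrF ι α β i j)
    (hφ : ∀ q, φ q = ι q.re + ι q.imI * i + ι q.imJ * j + ι q.imK * (i * j)) (q : Qt α β) :
    ν (ι (2 * q.re)) ≤ ν (φ q) := by
  rw [← phi_alg hφ, ← add_star, map_add]
  refine (hu _ _).trans ?_
  rw [nu_star ν h2 h hφ, max_self]

/-- The place of a subfield below an absolute value. -/
theorem exists_place [GFF F] (hu : ∀ x y, ν (x + y) ≤ max (ν x) (ν y)) (ι : F →ₐ[k] D)
    (hnt : ∃ x : F, 1 < ν (ι x)) :
    ∃ ω : Place F, ∀ x y : F, ω.abv x ≤ ω.abv y ↔ ν (ι x) ≤ ν (ι y) := by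
  have h1ν : ν 1 = 1 := map_one ν
  let V : ValuationSubring F :=
    { carrier := {x | ν (ι x) ≤ 1}
      mul_mem' := fun {x y} hx hy => by
        change ν (ι (x * y)) ≤ 1
        rw [map_mul, map_mul]
        exact mul_le_one₀ hx (ν.nonneg _) hy
      one_mem' := by
        change ν (ι 1) ≤ 1
        rw [map_one, h1ν]
      add_mem' := fun {x y} hx hy => by
        change ν (ι (x + y)) ≤ 1
        rw [map_add]
        exact (hu _ _).trans (max_le hx hy)
      zero_mem' := by
        change ν (ι 0) ≤ 1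
        rw [map_zero, map_zero]
        exact zero_le_one
      neg_mem' := fun {x} hx => by
        change ν (ι (-x)) ≤ 1
        rw [map_neg, ν.map_neg]
        exact hx
      mem_or_inv_mem' := fun x => by
        by_cases hx : ν (ι x) ≤ 1
        · exact Or.inl hx
        · right
          change ν (ι x⁻¹) ≤ 1
          rw [map_inv₀, map_inv₀]
          exact inv_le_one_of_one_le₀ (not_le.mp hx).le }
  have hV : ∀ x : F, x ∈ V ↔ ν (ι x) ≤ 1 := fun x => Iff.rfl
  have hVt : V ≠ ⊤ := by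
    intro h
    obtain ⟨x, hx⟩ := hnt
    have : x ∈ V := by rw [h]; exact ValuationSubring.mem_top x
    exact absurd ((hV x).mp this) (not_le.mpr hx)
  obtain ⟨ω, hω⟩ := toPl_surjective (k := F) ⟨V, hVt⟩
  have hle : ∀ x : F, ω.abv x ≤ 1 ↔ ν (ι x) ≤ 1 := by
    intro x
    rw [← hV, ← toPl_le_one ω x, ← (toPl ω).mem_iff, hω]
  refine ⟨ω, fun x y => ?_⟩
  by_cases hy : y = 0
  · rw [hy, map_zero, map_zero, map_zero]
    constructor
    · intro h
      have : x = 0 := (ω.abv.eq_zero).mp (le_antisymm h (ω.abv.nonneg x))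
      rw [this, map_zero, map_zero]
    · intro h
      have : ι x = 0 := (ν.eq_zero).mp (le_antisymm h (ν.nonneg _))
      rw [(map_eq_zero ι).mp this, map_zero]
  · have h1 := hle (x / y)
    rw [map_div₀, map_div₀, map_div₀, div_le_one (ω.abv.pos hy),
      div_le_one (ν.pos ((map_ne_zero ι).mpr hy))] at h1
    exact h1

end nu

end Vale.Agent.P011.H704.HQ
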