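import Vale.Agent.P011.H732D.Spec
import Vale.Agent.P011.H167.CnB

/-!
# Units of the order of a basis at a place: norms, closeness, reduced norms of the centralizer
-/

open Module Polynomial

set_option linter.unusedSectionVars false

namespace Vale.Agent.P011.H704.HQ

open Vale.Agent.P011.H738 Vale.Agent.P011.H271 Vale.Agent.P011.H305 Vale.Agent.P011.H698
open Vale.Agent.P011.H63.FB
open Vale.Agent.P011.H872.FF (XaF IsCentF kk om om_sq)
open Vale.Agent.P011.H732D (Un)
open Vale.Agent.P011.W (HasNrd)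

section det

variable {k : Type} [Field k] {v : Place k} {N : ℕ}

/-- The integral lift of a matrix. -/
def liftM (M : Matrix (Fin N) (Fin N) k) (h : ∀ i j, v.abv (M i j) ≤ 1) :
    Matrix (Fin N) (Fin N) (integers v.abv v.nonarch) := fun i j => ⟨M i j, h i j⟩

theorem liftM_map (M : Matrix (Fin N) (Fin N) k) (h : ∀ i j, v.abv (M i j) ≤ 1) :
    (integers v.abv v.nonarch).subtype.mapMatrix (liftM M h) = M := rfl

theorem det_liftM (M : Matrix (Fin N) (Fin N) k) (h : ∀ i j, v.abv (M i j) ≤ 1) :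
    (((liftM M h).det : integers v.abv v.nonarch) : k) = M.det := by
  have h1 := RingHom.map_det (integers v.abv v.nonarch).subtype (liftM M h)
  rw [liftM_map] at h1
  exact h1

theorem abv_det_le {M : Matrix (Fin N) (Fin N) k} (h : ∀ i j, v.abv (M i j) ≤ 1) :
    v.abv M.det ≤ 1 := by
  rw [← det_liftM M h]
  exact (liftM M h).det.2

theorem abv_adj_le {M : Matrix (Fin N) (Fin N) k} (h : ∀ i j, v.abv (M i j) ≤ 1) (i j : Fin N) :
    v.abv (M.adjugate i j) ≤ 1 := by
  have h1 := RingHom.map_adjugate (integers v.abv v.nonarch).subtype (liftM M h)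
  rw [liftM_map] at h1
  rw [← h1]
  exact ((liftM M h).adjugate i j).2

theorem abv_det_close {M M' : Matrix (Fin N) (Fin N) k} (h : ∀ i j, v.abv (M i j) ≤ 1)
    (h' : ∀ i j, v.abv (M' i j) ≤ 1) (hc : ∀ i j, v.abv (M i j - M' i j) < 1) :
    v.abv (M.det - M'.det) < 1 := by
  rw [← det_liftM M h, ← det_liftM M' h']
  have h1 : (Ideal.Quotient.mk (maxIdeal v.abv v.nonarch)).mapMatrix (liftM M h) =
      (Ideal.Quotient.mk (maxIdeal v.abv v.nonarch)).mapMatrix (liftM M' h') := by
    ext i j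
    rw [RingHom.mapMatrix_apply, RingHom.mapMatrix_apply, Matrix.map_apply, Matrix.map_apply]
    exact Ideal.Quotient.eq.mpr (hc i j)
  have h2 := RingHom.map_det (Ideal.Quotient.mk (maxIdeal v.abv v.nonarch)) (liftM M h)
  have h3 := RingHom.map_det (Ideal.Quotient.mk (maxIdeal v.abv v.nonarch)) (liftM M' h')
  rw [h1, ← h3] at h2
  exact Ideal.Quotient.eq.mp h2

end det

section order

variable {k D : Type} [Field k] [DivisionRing D] [StarRing D] [Algebra k D] {N : ℕ}
  {B : Basis (Fin N) k D} {v : Place k} {x y : D}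

theorem bd_basis (j : Fin N) : Bd B v 1 (B j) := fun i => by
  rw [B.repr_self, Finsupp.single_apply]
  split_ifs
  · rw [map_one]
  · rw [map_zero]
    exact zero_le_one

theorem bd_mul (hG : Gd B v) (hx : Bd B v 1 x) (hy : Bd B v 1 y) : Bd B v 1 (x * y) := by
  have h := hG.mul' zero_le_one zero_le_one hx hy
  rwa [one_mul] at h

theorem lm_int (hG : Gd B v) (hx : Bd B v 1 x) (i j : Fin N) :
    v.abv (Algebra.leftMulMatrix B x i j) ≤ 1 := by
  rw [Algebra.leftMulMatrix_eq_repr_mul]
  exact bd_mul hG hx (bd_basis j) i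

theorem norm_le (hG : Gd B v) (hx : Bd B v 1 x) : v.abv (Algebra.norm k x) ≤ 1 := by
  rw [Algebra.norm_eq_matrix_det B]
  exact abv_det_le (lm_int hG hx)

theorem norm_close (hG : Gd B v) (hx : Bd B v 1 x) (hxy : Sm B v 1 (y - x)) :
    v.abv (Algebra.norm k y - Algebra.norm k x) < 1 := by
  have hy : Bd B v 1 y := by
    have e : y = (y - x) + x := by abel
    rw [e]
    exact hxy.bd.add hx
  rw [Algebra.norm_eq_matrix_det B, Algebra.norm_eq_matrix_det B]
  refine abv_det_close (lm_int hG hy) (lm_int hG hx) fun i j => ?_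
  rw [← Matrix.sub_apply, ← map_sub, Algebra.leftMulMatrix_eq_repr_mul]
  have e : (y - x) * B j = ∑ l, B.repr (y - x) l • (B l * B j) := by
    conv_lhs => rw [← B.sum_repr (y - x)]
    rw [Finset.sum_mul]
    exact Finset.sum_congr rfl fun l _ => smul_mul_assoc _ _ _
  have h2 : ∀ s : Finset (Fin N),
      v.abv (B.repr (∑ l ∈ s, B.repr (y - x) l • (B l * B j)) i) < 1 := by
    intro s
    classical
    induction s using Finset.induction_on with
    | empty =>
      rw [Finset.sum_empty, map_zero, Finsupp.zero_apply, map_zero]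
      exact zero_lt_one
    | insert b s hb ih =>
      rw [Finset.sum_insert hb, map_add, Finsupp.add_apply]
      refine (v.nonarch _ _).trans_lt (max_lt ?_ ih)
      rw [map_smul, Finsupp.smul_apply, smul_eq_mul, map_mul]
      exact mul_lt_one_of_nonneg_of_lt_one_left (v.abv.nonneg _) (hxy b) (hG.mul b j i)
  rw [e]
  exact h2 _

theorem bd_of_un (h : Un B v x) : Bd B v 1 x := h.1

theorem un_inv (h : Un B v x) : Un B v x⁻¹ := ⟨h.2, by rw [inv_inv]; exact h.1⟩

theorem un_mul (hG : Gd B v) (hx : Un B v x) (hy : Un B v y) : Un B v (x * y) :=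
  ⟨bd_mul hG hx.1 hy.1, by rw [mul_inv_rev]; exact bd_mul hG hy.2 hx.2⟩

theorem un_star (hst : ∀ (c : k) (x : D), star (c • x) = c • star x) (hG : Gd B v)
    (hx : Un B v x) : Un B v (star x) :=
  ⟨hG.star' hst zero_le_one hx.1, by rw [← star_inv₀]; exact hG.star' hst zero_le_one hx.2⟩

theorem un_norm (hG : Gd B v) (hx0 : x ≠ 0) (hx : Un B v x) : v.abv (Algebra.norm k x) = 1 := by
  have h1 : v.abv (Algebra.norm k x) * v.abv (Algebra.norm k x⁻¹) = 1 := by
    rw [← map_mul, ← map_mul, mul_inv_cancel₀ hx0, map_one, map_one]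
  have h2 := norm_le hG hx.1
  have h3 := norm_le hG hx.2
  have h4 := v.abv.nonneg (Algebra.norm k x)
  nlinarith

theorem un_of_norm (hG : Gd B v) (hx : Bd B v 1 x) (h : v.abv (Algebra.norm k x) = 1) :
    Un B v x := by
  refine ⟨hx, ?_⟩
  rcases eq_or_ne x 0 with rfl | hx0
  · rw [inv_zero]
    exact bd_zero zero_le_one
  set M := Algebra.leftMulMatrix B x with hM
  have h1 : M.mulVec (B.repr x⁻¹) = B.repr 1 := by
    rw [hM, Algebra.leftMulMatrix_mulVec_repr, mul_inv_cancel₀ hx0]
  have h2 : (Algebra.norm k x) • (fun i => B.repr x⁻¹ i) =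
      M.adjugate.mulVec (fun i => B.repr (1 : D) i) := by
    have h3 : M.adjugate.mulVec (M.mulVec (B.repr x⁻¹)) = M.adjugate.mulVec (B.repr 1) := by
      rw [h1]
    rw [Matrix.mulVec_mulVec, Matrix.adjugate_mul, ← Algebra.norm_eq_matrix_det,
      Matrix.smul_mulVec, Matrix.one_mulVec] at h3
    exact h3
  intro i
  have h3 := congrFun h2 i
  rw [Pi.smul_apply, smul_eq_mul, Matrix.mulVec, dotProduct] at h3
  have h4 : v.abv (B.repr x⁻¹ i) = v.abv (∑ j, M.adjugate i j * B.repr (1 : D) j) := by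
    rw [← h3, map_mul, h, one_mul]
  rw [h4]
  have h5 : ∀ s : Finset (Fin N), v.abv (∑ j ∈ s, M.adjugate i j * B.repr (1 : D) j) ≤ 1 := by
    intro s
    classical
    induction s using Finset.induction_on with
    | empty => rw [Finset.sum_empty, map_zero]; exact zero_le_one
    | insert b s hb ih =>
      rw [Finset.sum_insert hb]
      refine (v.nonarch _ _).trans (max_le ?_ ih)
      rw [map_mul]
      exact mul_le_one₀ (abv_adj_le (lm_int hG hx) i b) (v.abv.nonneg _) (hG.one b)
  exact h5 _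

theorem un_iff (hG : Gd B v) (hx0 : x ≠ 0) (hx : Bd B v 1 x) :
    Un B v x ↔ v.abv (Algebra.norm k x) = 1 := ⟨un_norm hG hx0, un_of_norm hG hx⟩

theorem un_of_near (hG : Gd B v) (hx0 : x ≠ 0) (hx : Un B v x) (hxy : Sm B v 1 (y - x)) :
    Un B v y := by
  have hy : Bd B v 1 y := by
    have e : y = (y - x) + x := by abel
    rw [e]
    exact hxy.bd.add hx.1
  refine un_of_norm hG hy ?_
  have h1 := un_norm hG hx0 hx
  have h2 := norm_close hG hx.1 hxy
  refine le_antisymm (norm_le hG hy) ?_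
  by_contra hcon
  rw [not_le] at hcon
  have e : Algebra.norm k x = Algebra.norm k y + -(Algebra.norm k y - Algebra.norm k x) := by ring
  have h3 := v.nonarch (Algebra.norm k y) (-(Algebra.norm k y - Algebra.norm k x))
  rw [← e, h1, v.abv.map_neg] at h3
  exact absurd h3 (not_le.mpr (max_lt hcon h2))

end order

section form

variable {k : Type} [Field k] [GFF k]

/-- The values of the norm form of an unramified quadratic extension. -/
theorem abv_form {v : Place k} (h2 : (2 : k) ≠ 0) {δ : kˣ} (hδ : v.abv (δ : k) = 1)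
    (hns : δ ∉ LSF v) (p u : k) :
    v.abv (p ^ 2 - δ * u ^ 2) = max (v.abv p) (v.abv u) ^ 2 := by
  have hup : v.abv (p ^ 2 - δ * u ^ 2) ≤ max (v.abv p) (v.abv u) ^ 2 := by
    have h1 := v.nonarch (p ^ 2) (-(δ * u ^ 2))
    rw [← sub_eq_add_neg, AbsoluteValue.map_neg, map_mul, hδ, one_mul, map_pow, map_pow] at h1
    refine h1.trans (max_le ?_ ?_)
    · exact pow_le_pow_left₀ (v.abv.nonneg _) (le_max_left _ _) 2
    · exact pow_le_pow_left₀ (v.abv.nonneg _) (le_max_right _ _) 2
  have hlow : v.abv u ^ 2 ≤ v.abv (p ^ 2 - δ * u ^ 2) := by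
    by_contra hcon
    rw [not_le] at hcon
    have hu : u ≠ 0 := by
      intro h0
      have h1 : v.abv u ^ 2 = 0 := by rw [h0, map_zero]; exact zero_pow two_ne_zero
      rw [h1] at hcon
      exact absurd hcon (not_lt.mpr (v.abv.nonneg _))
    have hcon' : v.abv (p ^ 2 - δ * u ^ 2) < v.abv ((δ : k) * u ^ 2) := by
      rw [map_mul, hδ, one_mul, map_pow]
      exact hcon
    have hp2 : v.abv (p ^ 2) = v.abv ((δ : k) * u ^ 2) := abv_eq_of_close hcon'
    have hp : p ≠ 0 := by
      rintro rfl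
      rw [zero_pow two_ne_zero, map_zero, map_mul, hδ, one_mul, map_pow] at hp2
      have h0 := v.abv.ne_zero hu
      exact h0 (pow_eq_zero_iff two_ne_zero |>.mp hp2.symm)
    apply hns
    have h1 : δ * (Units.mk0 u hu) ^ 2 ∈ LSF v := by
      refine LSF_of_close v h2 (x := (Units.mk0 p hp) ^ 2) (sq_mem_LSF v _) ?_
      rw [Units.val_mul, Units.val_pow_eq_pow_val, Units.val_pow_eq_pow_val, Units.val_mk0,
        Units.val_mk0, v.abv.map_sub, hp2]
      exact hcon'
    have h3 := (LSF v).mul_mem h1 ((LSF v).inv_mem (sq_mem_LSF v (Units.mk0 u hu)))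
    rwa [mul_inv_cancel_right] at h3
  refine le_antisymm hup ?_
  rcases le_total (v.abv p) (v.abv u) with h | h
  · rw [max_eq_right h]
    exact hlow
  · rw [max_eq_left h]
    have e : p ^ 2 = (p ^ 2 - δ * u ^ 2) + δ * u ^ 2 := by ring
    have h1 := v.nonarch (p ^ 2 - δ * u ^ 2) (δ * u ^ 2)
    rw [← e, map_pow, map_mul, hδ, one_mul, map_pow] at h1
    exact h1.trans (max_le le_rfl hlow)

end form

section nrd

variable {k K D L K' C : Type} [Field k] [Field K] [StarRing K]
    [DivisionRing D] [StarRing D] [Algebra k K] [Algebra k D] [Algebra K D] [IsScalarTower k K D]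
    [Field L] [Algebra k L] [Field K'] [StarRing K']
    [Algebra K K'] [DivisionRing C] [StarRing C] [Algebra L K'] [Algebra L C] [Algebra K' C]
    [IsScalarTower L K' C] {d : kˣ} {s : K} {t : D} {a : kˣ} {T : L} {j : C →+* D}

/-- The norm to `K` of an element of `k(om)`. -/
theorem norm_pu (hS : SetF k K D d s) (h : IsCentF k K D L K' C t a T j) (p u : k) :
    Algebra.norm K (kk k K K' p + kk k K K' u * om K' s T) =
      algebraMap k K (p ^ 2 - ((a * d : kˣ) : k) * u ^ 2) := by
  have hTT : algebraMap L K' T * algebraMap L K' T = algebraMap K K' (algebraMap k K a) := by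
    rw [← map_mul, h.sqT, h.comp]
  have hN := Pow.norm_quad h.rkK hTT h.repK (algebraMap k K p) (algebraMap k K u * s)
  have e : kk k K K' p + kk k K K' u * om K' s T = algebraMap K K' (algebraMap k K p) +
      algebraMap K K' (algebraMap k K u * s) * algebraMap L K' T := by
    rw [om, map_mul, ← mul_assoc]
    rfl
  rw [e, hN, mul_pow, hS.sq, Units.val_mul, map_sub, map_mul, map_mul, map_pow, map_pow]
  ring

/-- The norm to `k` of an element of the centralizer. -/
theorem norm_cent [GFF k] (hS : SetF k K D d s)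
    (hSC : SetF L K' C (incF k L d) (algebraMap K K' s))
    (h : IsCentF k K D L K' C t a T j) {n m : ℕ} (hn : n = 2 * m)
    (hdeg : finrank K D = n ^ 2) (hC : finrank K' C = m ^ 2) {c : C} {p u : k}
    (hν : HasNrd K' m c (kk k K K' p + kk k K K' u * om K' s T)) :
    Algebra.norm k (j c) = (p ^ 2 - ((a * d : kˣ) : k) * u ^ 2) ^ (2 * n) := by
  have := hS.fin
  have := hS.cen
  have := hSC.fin
  have := hSC.cen
  have hkinf : Infinite k := Vale.Agent.P011.Hey.gff_infinite k
  have hKinf : Infinite K := Infinite.of_injective _ (algebraMap k K).injective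
  have hn0 : 0 < n := W.deg_pos hdeg
  have h1 := H167.Cn.hasNrd h hn hdeg hC hν
  rw [norm_pu hS h] at h1
  obtain ⟨f⟩ := Vale.Agent.P011S.exists_split (K := K) (D := D) hdeg (AlgebraicClosure K)
  have h2 := Vale.Agent.P011S.SF.norm_eq_det_pow hn0 hdeg f (j c)
  rw [h1 (AlgebraicClosure K) f, ← map_pow, ← map_pow] at h2
  have h3 := (algebraMap K (AlgebraicClosure K)).injective h2
  rw [← Algebra.norm_norm (R := k) (S := K) (a := j c), h3, Algebra.norm_algebraMap, hS.rank,
    ← pow_mul, mul_comm n 2]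

/-- Integral elements of the centralizer: the coordinates of the reduced norm, units. -/
theorem un_of_nrd [GFF k] (hS : SetF k K D d s)
    (hSC : SetF L K' C (incF k L d) (algebraMap K K' s))
    (h : IsCentF k K D L K' C t a T j) {n m : ℕ} (hn : n = 2 * m)
    (hdeg : finrank K D = n ^ 2) (hC : finrank K' C = m ^ 2) {N : ℕ} {B : Basis (Fin N) k D}
    {v : Place k} (hG : Gd B v) (hδ : v.abv ((a * d : kˣ) : k) = 1) (hns : a * d ∉ LSF v)
    {c : C} {p u : k} (hc0 : c ≠ 0)
    (hν : HasNrd K' m c (kk k K K' p + kk k K K' u * om K' s T)) (hc : Bd B v 1 (j c)) :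
    v.abv p ≤ 1 ∧ v.abv u ≤ 1 ∧ (Un B v (j c) ↔ (v.abv p = 1 ∨ v.abv u = 1)) := by
  have h2 : (2 : k) ≠ 0 := hS.two_ne
  have := hS.fin
  have hn0 : 0 < n := W.deg_pos hdeg
  have hjc : j c ≠ 0 := (map_ne_zero j).mpr hc0
  have hnorm := norm_cent hS hSC h hn hdeg hC hν
  have hform := abv_form h2 hδ hns p u
  have hle := norm_le hG hc
  rw [un_iff hG hjc hc, hnorm, map_pow, hform, ← pow_mul]
  rw [hnorm, map_pow, hform, ← pow_mul] at hle
  have hmax0 : 0 ≤ max (v.abv p) (v.abv u) := le_max_of_le_left (v.abv.nonneg _)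
  have hN0 : 2 * (2 * n) ≠ 0 := by omega
  have hmax : max (v.abv p) (v.abv u) ≤ 1 := (pow_le_one_iff_of_nonneg hmax0 hN0).mp hle
  obtain ⟨hp, hu⟩ := max_le_iff.mp hmax
  refine ⟨hp, hu, ?_⟩
  rw [pow_eq_one_iff_of_nonneg hmax0 hN0]
  constructor
  · intro h3
    rcases max_choice (v.abv p) (v.abv u) with h4 | h4
    · exact Or.inl (h4 ▸ h3)
    · exact Or.inr (h4 ▸ h3)
  · rintro (h3 | h3)
    · exact le_antisymm hmax (h3 ▸ le_max_left _ _)
    · exact le_antisymm hmax (h3 ▸ le_max_right _ _)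

end nrd

end Vale.Agent.P011.H704.HQ
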